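import Vale.Agent.P181.H602.Dunkl

/-!
# Support and total degree of Dunkl operators
-/

namespace Vale.Agent.P181.H4

open MvPolynomial Vale.Agent.P181.H602

variable {ι : Type*} [DecidableEq ι] {K : Type*} [Field K]

omit [DecidableEq ι] in
theorem sup_induction {S : Finset ι} {P : MvPolynomial ι K → Prop}
    (hC : ∀ a, P (C a)) (hX : ∀ i ∈ S, P (X i)) (hadd : ∀ f g, P f → P g → P (f + g))
    (hmul : ∀ f g, f ∈ supported K (S : Set ι) → g ∈ supported K (S : Set ι) → P f → P g →
      P (f * g))
    {f : MvPolynomial ι K} (hf : f ∈ supported K (S : Set ι)) : P f := by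
  have hf' := hf
  rw [supported_eq_adjoin_X] at hf'
  refine Algebra.adjoin_induction (p := fun x _ => P x) ?_ ?_ ?_ ?_ hf'
  · rintro x ⟨i, hi, rfl⟩
    exact hX i hi
  · intro r
    exact hC r
  · intro x y _ _ hx hy
    exact hadd x y hx hy
  · intro x y hx' hy' hx hy
    rw [← supported_eq_adjoin_X] at hx' hy'
    exact hmul x y hx' hy' hx hy

theorem sw_mem {S : Finset ι} {i j : ι} (hi : i ∈ S) (hj : j ∈ S) {f : MvPolynomial ι K}
    (hf : f ∈ supported K (S : Set ι)) : sw i j f ∈ supported K (S : Set ι) := by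
  refine sup_induction (P := fun f => sw i j f ∈ supported K (S : Set ι)) ?_ ?_ ?_ ?_ hf
  · intro a
    rw [sw, rename_C]
    exact Subalgebra.algebraMap_mem _ a
  · intro l hl
    rw [sw_X, X_mem_supported]
    rcases eq_or_ne l i with h | h
    · subst h; rw [Equiv.swap_apply_left]; exact hj
    · rcases eq_or_ne l j with h' | h'
      · subst h'; rw [Equiv.swap_apply_right]; exact hi
      · rw [Equiv.swap_apply_of_ne_of_ne h h']; exact hl
  · intro f g hf hg
    rw [map_add]; exact Subalgebra.add_mem _ hf hg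
  · intro f g _ _ hf hg
    rw [map_mul]; exact Subalgebra.mul_mem _ hf hg

theorem dd_mem {S : Finset ι} {i j : ι} (hi : i ∈ S) (hj : j ∈ S) {f : MvPolynomial ι K}
    (hf : f ∈ supported K (S : Set ι)) : dd i j f ∈ supported K (S : Set ι) := by
  rcases eq_or_ne i j with hij | hij
  · subst hij; rw [dd_self]; exact Subalgebra.zero_mem _
  refine sup_induction (P := fun f => dd i j f ∈ supported K (S : Set ι)) ?_ ?_ ?_ ?_ hf
  · intro a
    rw [dd_C]; exact Subalgebra.zero_mem _
  · intro l hl
    rcases eq_or_ne l i with h | h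
    · subst h; rw [dd_X_left hij]; exact Subalgebra.one_mem _
    · rcases eq_or_ne l j with h' | h'
      · subst h'; rw [dd_X_right hij]; exact Subalgebra.neg_mem _ (Subalgebra.one_mem _)
      · rw [dd_X_of_ne h h']; exact Subalgebra.zero_mem _
  · intro f g hf hg
    rw [map_add]; exact Subalgebra.add_mem _ hf hg
  · intro f g hf' hg' hf hg
    rw [dd_mul]
    exact Subalgebra.add_mem _ (Subalgebra.mul_mem _ hf hg')
      (Subalgebra.mul_mem _ (sw_mem hi hj hf') hg)

omit [DecidableEq ι] in
theorem pderiv_mem {S : Finset ι} (i : ι) {f : MvPolynomial ι K}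
    (hf : f ∈ supported K (S : Set ι)) : pderiv i f ∈ supported K (S : Set ι) := by
  refine sup_induction (P := fun f => pderiv i f ∈ supported K (S : Set ι)) ?_ ?_ ?_ ?_ hf
  · intro a
    rw [pderiv_C]; exact Subalgebra.zero_mem _
  · intro l hl
    rcases eq_or_ne l i with h | h
    · subst h; rw [pderiv_X_self]; exact Subalgebra.one_mem _
    · rw [pderiv_X_of_ne h]; exact Subalgebra.zero_mem _
  · intro f g hf hg
    rw [map_add]; exact Subalgebra.add_mem _ hf hg
  · intro f g hf' hg' hf hg
    rw [Derivation.leibniz, smul_eq_mul, smul_eq_mul]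
    exact Subalgebra.add_mem _ (Subalgebra.mul_mem _ hf' hg) (Subalgebra.mul_mem _ hg' hf)

theorem T_mem (q : K) {S : Finset ι} {i : ι} (hi : i ∈ S) {f : MvPolynomial ι K}
    (hf : f ∈ supported K (S : Set ι)) : T q S i f ∈ supported K (S : Set ι) := by
  rw [T_apply]
  refine Subalgebra.sub_mem _ (pderiv_mem i hf) (Subalgebra.mul_mem _ ?_ ?_)
  · exact Subalgebra.algebraMap_mem _ q
  · exact Subalgebra.sum_mem _ fun j hj => dd_mem hi (Finset.mem_of_mem_erase hj) hf

omit [DecidableEq ι] in
theorem totalDegree_X_sub_X {i j : ι} (h : i ≠ j) :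
    (X i - X j : MvPolynomial ι K).totalDegree = 1 := by
  have hh : (X i - X j : MvPolynomial ι K).IsHomogeneous 1 :=
    (isHomogeneous_X K i).sub (isHomogeneous_X K j)
  exact hh.totalDegree (X_sub_X_ne_zero h)

theorem totalDegree_dd {i j : ι} {f : MvPolynomial ι K} {n : ℕ}
    (hf : f.totalDegree ≤ n + 1) : (dd i j f).totalDegree ≤ n := by
  rcases eq_or_ne i j with hij | hij
  · subst hij; rw [dd_self]; simp
  by_cases h0 : dd i j f = 0
  · rw [h0]; simp
  have h1 : ((X i - X j) * dd i j f).totalDegree = 1 + (dd i j f).totalDegree := by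
    rw [totalDegree_mul_of_isDomain (X_sub_X_ne_zero hij) h0, totalDegree_X_sub_X hij]
  rw [mul_dd] at h1
  have h2 : (f - sw i j f).totalDegree ≤ n + 1 := by
    refine (totalDegree_sub _ _).trans (max_le hf ?_)
    exact (totalDegree_rename_le _ _).trans hf
  omega

omit [DecidableEq ι] in
theorem totalDegree_le_of {f : MvPolynomial ι K} {n : ℕ}
    (h : ∀ m, coeff m f ≠ 0 → (m.sum fun _ e => e) ≤ n) : f.totalDegree ≤ n := by
  unfold totalDegree
  exact Finset.sup_le fun m hm => h m (mem_support_iff.1 hm)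

omit [DecidableEq ι] in
theorem totalDegree_pderiv {i : ι} {f : MvPolynomial ι K} {n : ℕ}
    (hf : f.totalDegree ≤ n + 1) : (pderiv i f).totalDegree ≤ n := by
  refine totalDegree_le_of fun m hm => ?_
  rw [coeff_pderiv] at hm
  have h1 := le_totalDegree (mem_support_iff.2 (left_ne_zero_of_mul hm))
  rw [Finsupp.sum_add_index' (fun _ => rfl) (fun _ _ _ => rfl), Finsupp.sum_single_index rfl] at h1
  omega

theorem totalDegree_T (q : K) (S : Finset ι) {i : ι} {f : MvPolynomial ι K} {n : ℕ}
    (hf : f.totalDegree ≤ n + 1) : (T q S i f).totalDegree ≤ n := by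
  rw [T_apply]
  refine (totalDegree_sub _ _).trans (max_le (totalDegree_pderiv hf) ?_)
  rw [← smul_eq_C_mul]
  refine (totalDegree_smul_le _ _).trans ?_
  refine (totalDegree_finsetSum _ _).trans ?_
  exact Finset.sup_le fun j _ => totalDegree_dd hf

theorem T_eq_zero_of_totalDegree (q : K) (S : Finset ι) {i : ι} {f : MvPolynomial ι K}
    (hf : f.totalDegree = 0) : T q S i f = 0 := by
  rw [totalDegree_eq_zero_iff_eq_C] at hf
  rw [hf, T_C]

end Vale.Agent.P181.H4
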