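import Vale.Agent.P181.H4.W

/-!
# The leading coefficient lemma
-/

namespace Vale.Agent.P181.H4

open MvPolynomial Vale.Agent.P181.H602

variable {ι : Type*} [DecidableEq ι] {K : Type*} [Field K]

/-- The box with strict bound `e` in the active variables. -/
def bb (S : Finset ι) (e : ℕ) : ι → ℕ := fun i => if i ∈ S then e else 1

theorem mem_supported_of_box {S : Finset ι} {e : ℕ} {f : MvPolynomial ι K}
    (hf : f ∈ box (bb S e)) : f ∈ supported K (S : Set ι) := by
  rw [mem_supported]
  intro i hi
  rw [Finset.mem_coe, mem_vars_iff_mem_support] at hi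
  obtain ⟨d, hd, hi⟩ := hi
  rw [mem_box] at hf
  have h1 := hf d hd i
  by_contra hiS
  have hiS' : i ∉ S := hiS
  simp only [bb, hiS', if_false] at h1
  exact (Finsupp.mem_support_iff.1 hi) (by omega)

omit [DecidableEq ι] in
theorem support_of_supported {S : Finset ι} {f : MvPolynomial ι K}
    (hf : f ∈ supported K (S : Set ι)) {d : ι →₀ ℕ} (hd : d ∈ f.support) {i : ι} (hi : i ∉ S) :
    d i = 0 := by
  by_contra hc
  rw [mem_supported] at hf
  exact hi (hf (by
    rw [Finset.mem_coe, mem_vars_iff_mem_support]
    exact ⟨d, hd, Finsupp.mem_support_iff.2 hc⟩))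

theorem cf_supported {S : Finset ι} {f : MvPolynomial ι K}
    (hf : f ∈ supported K (S : Set ι)) (j : ι) (m : ℕ) :
    cf j m f ∈ supported K ((S.erase j : Finset ι) : Set ι) := by
  rw [mem_supported]
  intro i hi
  rw [Finset.mem_coe, mem_vars_iff_mem_support] at hi
  obtain ⟨d, hd, hi⟩ := hi
  rw [Finsupp.mem_support_iff] at hi
  rw [mem_support_cf] at hd
  have hij : i ≠ j := by
    rintro rfl; exact hi hd.1
  rw [Finset.mem_coe, Finset.mem_erase]
  refine ⟨hij, ?_⟩
  by_contra hiS
  have := support_of_supported hf hd.2 hiS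
  rw [Finsupp.add_apply] at this
  omega

/-- The leading coefficient lemma. -/
theorem g_lemma [CharZero K] {q : ℕ} (hq : 1 ≤ q) {S : Finset ι}
    (sing : ∀ j ∈ S, ∀ g ∈ supported K ((S.erase j : Finset ι) : Set ι),
      (∀ i ∈ S.erase j, T (q : K) (S.erase j) i g = 0) → g = C (constantCoeff g))
    {e : ℕ} (he : q * S.card ≤ e) {g : MvPolynomial ι K} (hg : g ∈ supported K (S : Set ι))
    (h1 : ∀ i ∈ S, T (q : K) S i g ∈ box (bb S e))
    (h2 : ∀ j ∈ S, coeff (Finsupp.single j e) g = 0) : g ∈ box (bb S e) := by
  classical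
  rcases S.eq_empty_or_nonempty with hS | hS
  · -- no variables
    rw [mem_box]
    intro d hd i
    have := support_of_supported hg hd (i := i) (by rw [hS]; simp)
    simp [bb, hS, this]
  by_contra hcon
  obtain ⟨j, hj, hjm⟩ := Finset.exists_mem_eq_sup S hS (fun i => degreeOf i g)
  obtain ⟨m, hm⟩ : ∃ m, m = degreeOf j g := ⟨_, rfl⟩
  have hle : ∀ i ∈ S, degreeOf i g ≤ m := by
    intro i hi
    rw [hm]
    refine le_of_le_of_eq ?_ hjm
    exact Finset.le_sup (f := fun i => degreeOf i g) hi
  have hem : e ≤ m := by
    by_contra hlt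
    apply hcon
    rw [mem_box]
    intro d hd i
    by_cases hi : i ∈ S
    · simp only [bb, hi, if_true]
      have h3 := monomial_le_degreeOf i hd
      have h4 := hle i hi
      omega
    · rw [support_of_supported hg hd hi]
      simp [bb, hi]
  have hcard : 1 ≤ S.card := Finset.card_pos.2 hS
  have hpos : 1 ≤ e := by
    have : 1 ≤ q * S.card := Nat.mul_pos hq hcard
    omega
  have hg0 : g ≠ 0 := by
    rintro rfl
    rw [degreeOf_zero] at hm
    omega
  -- the leading coefficient is a constant
  have hconst : ∀ l ∈ S, cf l m g = C (coeff (Finsupp.single l m) g) := by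
    intro l hl
    have h3 : ∀ i ∈ S.erase l, T (q : K) (S.erase l) i (cf l m g) = 0 := by
      intro i hi
      rw [← cf_T_of_ne (q : K) S (Finset.ne_of_mem_erase hi)
        (hle i (Finset.mem_of_mem_erase hi)) (hle l hl)]
      refine cf_eq_zero_of_mem_box (h1 i (Finset.mem_of_mem_erase hi)) ?_
      simp only [bb, hl, if_true]; exact hem
    have h4 := sing l hl _ (cf_supported hg l m) h3
    rw [h4]
    congr 1
    rw [constantCoeff_eq, coeff_cf]
    simp
  -- it does not vanish at `j`
  have hcj : coeff (Finsupp.single j m) g ≠ 0 := by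
    intro h0
    have h3 := hconst j hj
    rw [h0, C_0] at h3
    obtain ⟨d, hd, hdj⟩ : ∃ d ∈ g.support, d j = m := by
      have : ∃ d ∈ g.support, degreeOf j g ≤ d j := by
        by_contra hcc
        push Not at hcc
        have : degreeOf j g < degreeOf j g := by
          rw [degreeOf_lt_iff (by omega)]
          exact hcc
        omega
      obtain ⟨d, hd, hd2⟩ := this
      exact ⟨d, hd, by have := monomial_le_degreeOf j hd; omega⟩
    have h5 : coeff (d.erase j) (cf j m g) ≠ 0 := by
      rw [coeff_cf, Finsupp.erase_same, if_pos rfl]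
      have : d.erase j + Finsupp.single j m = d := by
        rw [← hdj]; exact Finsupp.erase_add_single j d
      rw [this]
      exact mem_support_iff.1 hd
    rw [h3, coeff_zero] at h5
    exact h5 rfl
  rcases Nat.lt_or_ge e m with hlt | hge
  · obtain ⟨m', rfl⟩ : ∃ m', m = m' + 1 := ⟨m - 1, by omega⟩
    set c : ι → K := fun l => coeff (Finsupp.single l (m' + 1)) g with hc
    have h6 : ∀ i ∈ S, ((m' : K) + 1 - q * (S.erase i).card) * c i
        + q * ∑ l ∈ S.erase i, c l = 0 := by
      intro i hi
      have h7 := cf_T_top (q : K) S i (hle i hi) (fun l hl => hle l (Finset.mem_of_mem_erase hl))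
      have h8 : cf i m' (T (q : K) S i g) = 0 := by
        refine cf_eq_zero_of_mem_box (h1 i hi) ?_
        simp only [bb, hi, if_true]; omega
      rw [h8, hconst i hi] at h7
      have h9 : ∑ l ∈ S.erase i, sw i l (cf l (m' + 1) g) = C (∑ l ∈ S.erase i, c l) := by
        rw [map_sum]
        refine Finset.sum_congr rfl fun l hl => ?_
        rw [hconst l (Finset.mem_of_mem_erase hl), sw, rename_C]
      rw [h9] at h7
      have h10 := congrArg constantCoeff h7
      simp only [map_zero, map_add, map_mul, constantCoeff_C] at h10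
      exact h10.symm
    have h11 : ∀ i ∈ S, ((m' : K) + 1 - q * S.card) * c i + q * ∑ l ∈ S, c l = 0 := by
      intro i hi
      have h12 := h6 i hi
      rw [← Finset.add_sum_erase _ _ hi]
      have h13 : ((S.erase i).card : K) = S.card - 1 := by
        rw [Finset.card_erase_of_mem hi, Nat.cast_sub hcard, Nat.cast_one]
      rw [h13] at h12
      linear_combination h12
    have h14 : ((m' : K) + 1) * ∑ l ∈ S, c l = 0 := by
      have h15 := Finset.sum_eq_zero h11
      rw [Finset.sum_add_distrib, ← Finset.mul_sum, Finset.sum_const, nsmul_eq_mul] at h15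
      linear_combination h15
    have h16 : ∑ l ∈ S, c l = 0 := by
      rcases mul_eq_zero.1 h14 with h | h
      · exfalso
        have : ((m' + 1 : ℕ) : K) = 0 := by push_cast; exact h
        rw [Nat.cast_eq_zero] at this
        omega
      · exact h
    have h17 := h11 j hj
    rw [h16, mul_zero, add_zero] at h17
    rcases mul_eq_zero.1 h17 with h | h
    · have h18 : ((m' + 1 : ℕ) : K) = ((q * S.card : ℕ) : K) := by
        push_cast; linear_combination h
      rw [Nat.cast_inj] at h18
      omega
    · exact hcj h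
  · have : m = e := le_antisymm hge hem
    exact hcj (this ▸ h2 j hj)

end Vale.Agent.P181.H4
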