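import Vale.Agent.P181.H4.SOut
import Vale.Agent.P181.H602.Bridge

/-!
# The binary kernel theorem
-/

namespace Vale.Agent.P181.H4

open MvPolynomial Vale.Agent.P181.H602

/-- **(K2)**, the binary kernel theorem in the affine chart, for all `d = card X'` and
`q = s + 1`. -/
theorem k2aff (K : Type*) [Field K] [CharZero K] (X' : Type*) [Fintype X'] [DecidableEq X']
    (s : ℕ) : Vale.Agent.P181.H482.K2aff K X' s :=
  K2aff_of_SStmt s (sStmt (by omega) _)

end Vale.Agent.P181.H4
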