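import Vale.Agent.P181.H4.S
import Vale.Agent.P181.H78.Pair

/-!
# Nonsingularity at `k = -q`
-/

namespace Vale.Agent.P181.H4

open MvPolynomial Vale.Agent.P181.H602 Vale.Agent.P181.H78

variable {ι : Type*} [DecidableEq ι] {K : Type*} [Field K]

/-- Pure powers are seen by the pairing. -/
def Fam0 (ι : Type*) [DecidableEq ι] (q : K) : Prop :=
  ∀ (S : Finset ι) (j : ι), j ∈ S → ∀ m : ℕ, 1 ≤ m → ∃ (p : MvPolynomial ι K) (c : K), c ≠ 0 ∧
    ∀ f, Bp q S f p = c * coeff (Finsupp.single j m) f

theorem nonsing (q : K) (F : Fam0 ι q) (n : ℕ) : ∀ (S : Finset ι), S.card = n →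
    ∀ g ∈ supported K (S : Set ι), (∀ i ∈ S, T q S i g = 0) → g = C (constantCoeff g) := by
  induction n with
  | zero =>
    intro S hS g hg _
    rw [Finset.card_eq_zero] at hS
    subst hS
    ext d
    rw [coeff_C]
    by_cases h : 0 = d
    · subst h; rw [if_pos rfl, constantCoeff_eq]
    · rw [if_neg h]
      by_contra hc
      apply h
      ext i
      rw [support_of_supported hg (mem_support_iff.2 hc) (i := i) (by simp)]
      rfl
  | succ n ih =>
    intro S hS g hg hT
    have hne : S.Nonempty := Finset.card_pos.1 (by omega)
    obtain ⟨j, hj, hjm⟩ := Finset.exists_mem_eq_sup S hne (fun i => degreeOf i g)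
    obtain ⟨m, hm⟩ : ∃ m, m = degreeOf j g := ⟨_, rfl⟩
    have hle : ∀ i ∈ S, degreeOf i g ≤ m := by
      intro i hi
      rw [hm]
      refine le_of_le_of_eq ?_ hjm
      exact Finset.le_sup (f := fun i => degreeOf i g) hi
    rcases Nat.eq_zero_or_pos m with h0 | hpos
    · -- all degrees are zero
      ext d
      rw [coeff_C]
      by_cases h : 0 = d
      · subst h; rw [if_pos rfl, constantCoeff_eq]
      · rw [if_neg h]
        by_contra hc
        apply h
        ext i
        have hd := mem_support_iff.2 hc
        by_cases hi : i ∈ S
        · have h1 := monomial_le_degreeOf i hd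
          have h2 := hle i hi
          rw [Finsupp.coe_zero, Pi.zero_apply]; omega
        · rw [support_of_supported hg hd hi]; rfl
    · exfalso
      -- the pure power vanishes
      have hc0 : coeff (Finsupp.single j m) g = 0 := by
        obtain ⟨p, c, hc, hp⟩ := F S j hj m hpos
        have h1 : Bp q S p g = 0 ∨ constantCoeff p ≠ 0 := by
          by_cases h : constantCoeff p = 0
          · left; exact Bp_eq_zero_of_T q S h hT
          · right; exact h
        -- the constant coefficient of `p` is `Bp 1 p`
        have h2 : constantCoeff p = 0 := by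
          rw [← Bp_one q S p, hp, coeff_one, if_neg, mul_zero]
          intro h
          have := DFunLike.congr_fun h j
          simp at this
          omega
        have h3 := h1.resolve_right (by simpa using h2)
        rw [Bp_comm, hp] at h3
        exact (mul_eq_zero.1 h3).resolve_left hc
      -- the leading coefficient is constant
      have h4 : cf j m g = C (constantCoeff (cf j m g)) := by
        refine ih (S.erase j) (by rw [Finset.card_erase_of_mem hj]; omega) _
          (cf_supported hg j m) ?_
        intro i hi
        rw [← cf_T_of_ne q S (Finset.ne_of_mem_erase hi)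
          (hle i (Finset.mem_of_mem_erase hi)) (hle j hj), hT i (Finset.mem_of_mem_erase hi),
          map_zero]
      have h5 : cf j m g = 0 := by
        rw [h4, constantCoeff_eq, coeff_cf, Finsupp.coe_zero, Pi.zero_apply, if_pos rfl,
          zero_add, hc0, C_0]
      obtain ⟨d, hd, hdj⟩ : ∃ d ∈ g.support, d j = m := by
        have : ∃ d ∈ g.support, degreeOf j g ≤ d j := by
          by_contra hcc
          push Not at hcc
          have : degreeOf j g < degreeOf j g := by
            rw [degreeOf_lt_iff (by omega)]
            exact hcc
          omega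
        obtain ⟨d, hd, hd2⟩ := this
        exact ⟨d, hd, by have := monomial_le_degreeOf j hd; omega⟩
      have h6 : coeff (d.erase j) (cf j m g) ≠ 0 := by
        rw [coeff_cf, Finsupp.erase_same, if_pos rfl]
        have : d.erase j + Finsupp.single j m = d := by
          rw [← hdj]; exact Finsupp.erase_add_single j d
        rw [this]
        exact mem_support_iff.1 hd
      rw [h5, coeff_zero] at h6
      exact h6 rfl

/-- The pairing of helper78 as a `PD`. -/
noncomputable def pd (q : K) (F : Fam0 ι q) (S : Finset ι) : PD q S where
  B := Bp q S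
  mul _ hi f g := Bp_X_mul q hi f g
  mul' _ hi f g := Bp_X_mul_of_notMem q hi f g
  const a g := Bp_C q S a g
  symm f g := Bp_comm q S f g
  sing := nonsing q F S.card S rfl

end Vale.Agent.P181.H4
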