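import Vale.Agent.P181.H4.G

/-!
# The dimension of the kernel of a Dunkl operator on a box
-/

namespace Vale.Agent.P181.H4

open MvPolynomial Vale.Agent.P181.H602

variable {ι : Type*} [DecidableEq ι] {K : Type*} [Field K]

/-- `g` corresponds to `f`. -/
def Rel {q : K} {S S' : Finset ι} (P : PD q S) (P' : PD q S') (f g : MvPolynomial ι K) : Prop :=
  ∀ p, P'.B p g = P.B p f

theorem Rel.T {q : K} {S : Finset ι} {z : ι} {P : PD q S} {P' : PD q (S.erase z)}
    {f g : MvPolynomial ι K} (h : Rel P P' f g) {j : ι} (hj : j ∈ S.erase z) :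
    Rel P P' (T q S j f) (T q (S.erase z) j g) := by
  intro p
  rw [← P'.mul j hj, h, P.mul j (Finset.mem_of_mem_erase hj)]

theorem Rel.zero {q : K} {S : Finset ι} {z : ι} {P : PD q S} {P' : PD q (S.erase z)}
    {g : MvPolynomial ι K} (h : Rel P P' 0 g)
    (hg : g ∈ supported K ((S.erase z : Finset ι) : Set ι)) : g = 0 :=
  P'.eq_zero hg fun f => by rw [h f, map_zero]

theorem Rel.zero' {q : K} {S : Finset ι} {z : ι} {P : PD q S} {P' : PD q (S.erase z)}
    {f : MvPolynomial ι K} (h : Rel P P' f 0)
    (hf : f ∈ supported K (S : Set ι)) : f = 0 :=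
  P.eq_zero hf fun p => by rw [← h p, map_zero]

theorem exists_rel [Finite ι] {q : K} {S : Finset ι} {z : ι} (hz : z ∈ S) (P : PD q S)
    (P' : PD q (S.erase z)) {f : MvPolynomial ι K} (hf : T q S z f = 0) :
    ∃ g ∈ supported K ((S.erase z : Finset ι) : Set ι), Rel P P' f g := by
  obtain ⟨g, hg, h⟩ := P'.exists_rep f.totalDegree (P.B.flip f) (by
    rintro α ⟨i, hi, hαi⟩
    rw [LinearMap.flip_apply, monomial_split hαi]
    by_cases hiz : i = z
    · subst hiz
      rw [P.mul i hz, hf, map_zero]
    · rw [P.mul' i (fun h => hi (Finset.mem_erase.2 ⟨hiz, h⟩))]) (by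
    intro α hα
    exact P.B_monomial_eq_zero _ α f le_rfl hα)
  exact ⟨g, hg, fun p => h p⟩

/-- The special polynomials. -/
structure Fam {q : K} {S : Finset ι} {z : ι} (P : PD q S) (P' : PD q (S.erase z)) (m : ℕ)
    (j : ι) : Prop where
  out : ∃ (p p' r : MvPolynomial ι K) (c c' : K), c' ≠ 0 ∧ p = p' + X z * r ∧
    (∀ f, P.B f p = c * coeff (Finsupp.single j m) f) ∧
    (∀ f, P'.B f p' = c' * coeff (Finsupp.single j m) f)

theorem Rel.coeff {q : K} {S : Finset ι} {z : ι} (hz : z ∈ S) {P : PD q S}
    {P' : PD q (S.erase z)} {m : ℕ} {j : ι} (F : Fam P P' m j) {f g : MvPolynomial ι K}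
    (h : Rel P P' f g) (hf : Vale.Agent.P181.H602.T q S z f = 0)
    (h0 : MvPolynomial.coeff (Finsupp.single j m) f = 0) :
    MvPolynomial.coeff (Finsupp.single j m) g = 0 := by
  obtain ⟨p, p', r, c, c', hc', hp, h1, h2⟩ := F.out
  have h3 : P'.B p' g = P.B p f := by
    rw [h p', hp, map_add, LinearMap.add_apply, P.mul z hz, hf, map_zero, add_zero]
  rw [P'.symm, h2, P.symm, h1, h0, mul_zero] at h3
  exact (mul_eq_zero.1 h3).resolve_left hc'

/-- The box is stable. -/
theorem T_mem_bb (q : K) {S : Finset ι} {i : ι} (hi : i ∈ S) {e : ℕ} {f : MvPolynomial ι K}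
    (hf : f ∈ box (bb S e)) : T q S i f ∈ box (bb S e) := by
  have h := T_mem_box q S i hf (by
    intro j hj
    simp [bb, hi, Finset.mem_of_mem_erase hj])
  refine box_mono (fun l => ?_) h
  rcases eq_or_ne l i with hl | hl
  · subst hl; rw [Function.update_self]; omega
  · rw [Function.update_of_ne hl]

theorem main_claim [CharZero K] {q : ℕ} (hq : 1 ≤ q) {S : Finset ι} {z : ι} (hz : z ∈ S)
    (P : PD (q : K) S) (P' : PD (q : K) (S.erase z))
    (sing : ∀ j ∈ S.erase z, ∀ g ∈ supported K (((S.erase z).erase j : Finset ι) : Set ι),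
      (∀ i ∈ (S.erase z).erase j, T (q : K) ((S.erase z).erase j) i g = 0) →
        g = C (constantCoeff g))
    (F : ∀ j ∈ S.erase z, Fam P P' (q * S.card) j) (n : ℕ) :
    ∀ f g : MvPolynomial ι K, f.totalDegree ≤ n → f ∈ box (bb S (q * S.card)) →
      T (q : K) S z f = 0 → g ∈ supported K ((S.erase z : Finset ι) : Set ι) → Rel P P' f g →
      g ∈ box (bb (S.erase z) (q * S.card)) := by
  have he : q * (S.erase z).card ≤ q * S.card :=
    Nat.mul_le_mul_left _ (Finset.card_le_card (Finset.erase_subset _ _))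
  have hcoeff : ∀ f g : MvPolynomial ι K, f ∈ box (bb S (q * S.card)) →
      T (q : K) S z f = 0 → Rel P P' f g → ∀ j ∈ S.erase z,
      MvPolynomial.coeff (Finsupp.single j (q * S.card)) g = 0 := by
    intro f g hf hTf hR j hj
    refine Rel.coeff hz (F j hj) hR hTf ?_
    by_contra hc
    rw [mem_box] at hf
    have := hf _ (mem_support_iff.2 hc) j
    simp [bb, Finset.mem_of_mem_erase hj] at this
  induction n with
  | zero =>
    intro f g hdeg hf hTf hg hR
    refine g_lemma hq sing he hg ?_ (hcoeff f g hf hTf hR)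
    intro i hi
    have h1 := hR.T hi
    rw [T_eq_zero_of_totalDegree _ S (Nat.le_zero.1 hdeg)] at h1
    rw [h1.zero (T_mem _ hi hg)]
    exact Submodule.zero_mem _
  | succ n ih =>
    intro f g hdeg hf hTf hg hR
    refine g_lemma hq sing he hg ?_ (hcoeff f g hf hTf hR)
    intro i hi
    have hiS := Finset.mem_of_mem_erase hi
    refine ih (T (q : K) S i f) _ (totalDegree_T _ S hdeg) (T_mem_bb _ hiS hf) ?_
      (T_mem _ hi hg) (hR.T hi)
    rw [T_comm _ S hz hiS, hTf, map_zero]

theorem finrank_le [Fintype ι] [CharZero K] {q : ℕ} (hq : 1 ≤ q) {S : Finset ι} {z : ι}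
    (hz : z ∈ S) (P : PD (q : K) S) (P' : PD (q : K) (S.erase z))
    (sing : ∀ j ∈ S.erase z, ∀ g ∈ supported K (((S.erase z).erase j : Finset ι) : Set ι),
      (∀ i ∈ (S.erase z).erase j, T (q : K) ((S.erase z).erase j) i g = 0) →
        g = C (constantCoeff g))
    (F : ∀ j ∈ S.erase z, Fam P P' (q * S.card) j) :
    Module.finrank K (KS (q : K) S z (fun i => if i ∈ S then q * S.card else 1)) ≤
      (q * S.card) ^ (S.card - 1) := by
  classical
  let A := KS (q : K) S z (bb S (q * S.card))
  let M := box (K := K) (bb (S.erase z) (q * S.card))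
  -- the graph of the embedding
  let R : Submodule K (A × M) :=
    { carrier := {x | Rel P P' (x.1 : MvPolynomial ι K) (x.2 : MvPolynomial ι K)}
      add_mem' := by
        intro x y hx hy p
        have h1 := hx p
        have h2 := hy p
        simp only [Prod.fst_add, Prod.snd_add, Submodule.coe_add, map_add, h1, h2]
      zero_mem' := by
        intro p
        simp
      smul_mem' := by
        intro c x hx p
        have h1 := hx p
        simp only [Prod.smul_fst, Prod.smul_snd, Submodule.coe_smul, map_smul, h1] }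
  have hM : Module.finrank K M = (q * S.card) ^ (S.card - 1) := by
    change Module.finrank K (box (K := K) (bb (S.erase z) (q * S.card))) = _
    rw [finrank_box, ← Finset.card_erase_of_mem hz, ← Finset.prod_const]
    rw [← Finset.prod_subset (Finset.subset_univ (S.erase z))]
    · exact Finset.prod_congr rfl fun i hi => by simp only [bb, hi, if_true]
    · intro i _ hi
      simp only [bb, hi, if_false]
  have h1 : Module.finrank K A ≤ Module.finrank K R := by
    refine LinearMap.finrank_le_finrank_of_surjective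
      (f := (LinearMap.fst K A M).comp R.subtype) ?_
    intro f
    have hf := mem_KS.1 f.2
    obtain ⟨g, hg, hR⟩ := exists_rel hz P P' hf.1
    have hgM := main_claim hq hz P P' sing F _ (f : MvPolynomial ι K) g le_rfl hf.2 hf.1 hg hR
    exact ⟨⟨(f, ⟨g, hgM⟩), hR⟩, rfl⟩
  have h2 : Module.finrank K R ≤ Module.finrank K M := by
    refine LinearMap.finrank_le_finrank_of_injective
      (f := (LinearMap.snd K A M).comp R.subtype) ?_
    intro x y hxy
    have hxy' : x.1.2 = y.1.2 := hxy
    have hR : Rel P P' ((x.1.1 : MvPolynomial ι K) - (y.1.1 : MvPolynomial ι K)) 0 := by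
      intro p
      have h1 : P'.B p (x.1.2 : MvPolynomial ι K) = P.B p (x.1.1 : MvPolynomial ι K) := x.2 p
      have h2 : P'.B p (y.1.2 : MvPolynomial ι K) = P.B p (y.1.1 : MvPolynomial ι K) := y.2 p
      rw [map_zero, map_sub, ← h1, ← h2, hxy', sub_self]
    have hf0 := Rel.zero' hR (Subalgebra.sub_mem _ (mem_supported_of_box (mem_KS.1 x.1.1.2).2)
      (mem_supported_of_box (mem_KS.1 y.1.1.2).2))
    exact Subtype.ext (Prod.ext (Subtype.ext (sub_eq_zero.1 hf0)) hxy')
  calc Module.finrank K (KS (q : K) S z (fun i => if i ∈ S then q * S.card else 1))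
      = Module.finrank K A := rfl
    _ ≤ Module.finrank K R := h1
    _ ≤ Module.finrank K M := h2
    _ = _ := hM

end Vale.Agent.P181.H4
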