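import Vale.Agent.P181.H4.Nons
import Vale.Agent.P181.H78.Fam
import Vale.Agent.P181.H602.Span

/-!
# The dimension statement (S)
-/

namespace Vale.Agent.P181.H4

open MvPolynomial Vale.Agent.P181.H602 Vale.Agent.P181.H78

variable {ι : Type*} [DecidableEq ι] {K : Type*} [Field K]

/-- A chain of polynomials killed by `T_k`, `k ≠ j`, and lowered by `T_j`. -/
theorem Bp_chain (q : K) {S : Finset ι} {j : ι} (hj : j ∈ S) (r : ℕ → MvPolynomial ι K)
    (a : ℕ → K) (c₀ : K) (h0 : r 0 = C c₀)
    (h1 : ∀ k ∈ S, k ≠ j → ∀ m, T q S k (r m) = 0)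
    (h2 : ∀ m, T q S j (r (m + 1)) = C (a m) * r m)
    (h3 : ∀ m, constantCoeff (r (m + 1)) = 0) (f : MvPolynomial ι K) :
    ∀ m, Bp q S f (r m) = (c₀ * ∏ i ∈ Finset.range m, a i) * coeff (Finsupp.single j m) f := by
  induction f using ind_X_mul with
  | hC b =>
    intro m
    rw [Bp_C, coeff_C]
    cases m with
    | zero => rw [h0, constantCoeff_C]; simp; ring
    | succ m =>
      rw [h3, if_neg, mul_zero, mul_zero]
      intro h
      have := DFunLike.congr_fun h j
      simp at this
  | hadd p s hp hs =>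
    intro m
    rw [map_add, LinearMap.add_apply, hp, hs, coeff_add]; ring
  | hX p i hp =>
    intro m
    by_cases hi : i ∈ S
    · rw [Bp_X_mul q hi]
      rcases eq_or_ne i j with hij | hij
      · subst hij
        cases m with
        | zero =>
          rw [h0, T_C, map_zero, Finsupp.single_zero]
          rw [← constantCoeff_eq, map_mul, constantCoeff_X]; ring
        | succ m =>
          rw [h2, Bp_C_mul_right, hp, Finset.prod_range_succ]
          have : (Finsupp.single i (m + 1) : ι →₀ ℕ) = Finsupp.single i 1 + Finsupp.single i m := by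
            rw [← Finsupp.single_add, add_comm]
          rw [this, coeff_X_mul]; ring
      · rw [h1 i hi hij, map_zero]
        rw [mul_comm (X i) p, coeff_mul_X', if_neg, mul_zero]
        rw [Finsupp.mem_support_iff, Finsupp.single_eq_of_ne hij]
        simp
    · rw [Bp_X_mul_of_notMem q hi]
      have hij : i ≠ j := by rintro rfl; exact hi hj
      rw [mul_comm (X i) p, coeff_mul_X', if_neg, mul_zero]
      rw [Finsupp.mem_support_iff, Finsupp.single_eq_of_ne hij]
      simp

/-- The chain of `hh` and `vv`. -/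
noncomputable def rr (K : Type*) [Field K] (q : ℕ) (S : Finset ι) (j : ι) (m : ℕ) :
    MvPolynomial ι K :=
  if m < q * S.card then hh K q S j m else vv K q S j m

theorem exists_Bp_rr [CharZero K] {q : ℕ} (hq : 1 ≤ q) {S : Finset ι} {j : ι} (hj : j ∈ S)
    (m : ℕ) : ∃ c : K, c ≠ 0 ∧ ∀ f, Bp (q : K) S f (rr K q S j m)
      = c * coeff (Finsupp.single j m) f := by
  have hcard : 1 ≤ S.card := Finset.card_pos.2 ⟨j, hj⟩
  have hpos : 1 ≤ q * S.card := Nat.mul_pos hq hcard
  let a : ℕ → K := fun m => if m + 1 = q * S.card then (S.card : K) else (m : K) + 1 - q * S.card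
  have ha : ∀ m, a m ≠ 0 := by
    intro m
    simp only [a]
    split_ifs with h
    · exact Nat.cast_ne_zero.2 (by omega)
    · intro h0
      apply h
      have : ((m + 1 : ℕ) : K) = ((q * S.card : ℕ) : K) := by
        push_cast; linear_combination h0
      exact Nat.cast_injective this
  refine ⟨1 * ∏ i ∈ Finset.range m, a i, ?_, fun f => ?_⟩
  · rw [one_mul]; exact Finset.prod_ne_zero_iff.2 fun i _ => ha i
  refine Bp_chain (q : K) hj (rr K q S j) a 1 ?_ ?_ ?_ ?_ f m
  · unfold rr
    rw [if_pos (by omega), hh_zero, C_1]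
  · intro k hk hkj m
    unfold rr
    split_ifs with h
    · exact T_hh_of_ne hq hk hj hkj m
    · exact T_vv_of_ne hq hk hj hkj (by omega)
  · intro m
    unfold rr
    rcases lt_trichotomy (m + 1) (q * S.card) with h | h | h
    · rw [if_pos h, if_pos (by omega), T_hh_self hq hj m]
      simp only [a]
      rw [if_neg (by omega)]
      simp
    · rw [if_neg (by omega), if_pos (by omega), T_vv_self hq hj (by omega)]
      simp only [a]
      rw [if_pos h]
      have : ((m : MvPolynomial ι K) + 1 - q * S.card) = 0 := by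
        have h' : ((m + 1 : ℕ) : MvPolynomial ι K) = ((q * S.card : ℕ) : MvPolynomial ι K) := by
          rw [h]
        push_cast at h'
        rw [h', sub_self]
      rw [this, zero_mul, zero_add]
      simp
    · rw [if_neg (by omega), if_neg (by omega), T_vv_self hq hj (by omega),
        hh_eq_zero hq hj (by omega)]
      simp only [a]
      rw [if_neg (by omega)]
      simp
  · intro m
    unfold rr
    split_ifs with h
    · exact constantCoeff_hh_succ ..
    · exact constantCoeff_vv ..

theorem fam0 [CharZero K] {q : ℕ} (hq : 1 ≤ q) : Fam0 ι (q : K) := by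
  intro S j hj m _
  obtain ⟨c, hc, h⟩ := exists_Bp_rr (K := K) hq hj m
  exact ⟨rr K q S j m, c, hc, h⟩

theorem nonsingular [CharZero K] {q : ℕ} (hq : 1 ≤ q) (S : Finset ι) :
    ∀ g ∈ supported K (S : Set ι), (∀ i ∈ S, T (q : K) S i g = 0) → g = C (constantCoeff g) :=
  nonsing (q : K) (fam0 hq) S.card S rfl

/-- **(S)**: the dimension of the kernel of one Dunkl operator on the box. -/
theorem sStmt [Fintype ι] [CharZero K] {q : ℕ} (hq : 1 ≤ q) (S : Finset ι) : SStmt K q S := by
  intro z hz
  have h := finrank_le hq hz (pd (q : K) (fam0 hq) S) (pd (q : K) (fam0 hq) (S.erase z))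
    (fun j _ => nonsingular hq _) ?_
  · exact h
  intro j hj
  have hjS := Finset.mem_of_mem_erase hj
  have hzj : z ≠ j := (Finset.ne_of_mem_erase hj).symm
  have hle : q * (S.erase z).card ≤ q * S.card :=
    Nat.mul_le_mul_left _ (Finset.card_le_card (Finset.erase_subset _ _))
  obtain ⟨c, hc, h1⟩ := exists_Bp_rr (K := K) hq hjS (q * S.card)
  obtain ⟨c', hc', h2⟩ := exists_Bp_rr (K := K) hq hj (q * S.card)
  have e1 : rr K q S j (q * S.card) = vv K q S j (q * S.card) := if_neg (by omega)
  have e2 : rr K q (S.erase z) j (q * S.card) = vv K q (S.erase z) j (q * S.card) :=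
    if_neg (by omega)
  obtain ⟨r, hr⟩ := X_dvd_vv_sub (K := K) q hz hzj (q * S.card)
  refine ⟨⟨_, _, r, c, c', hc', ?_, h1, h2⟩⟩
  rw [e1, e2, ← hr]; ring

end Vale.Agent.P181.H4
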