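import Vale.Agent.P181.H4.Deg
import Vale.Agent.P181.H602.Coef

/-!
# The embedding of the kernel of a Dunkl operator into a box in one variable less
-/

namespace Vale.Agent.P181.H4

open MvPolynomial Vale.Agent.P181.H602

variable {ι : Type*} [DecidableEq ι] {K : Type*} [Field K]

/-- The pairing `f, g ↦ (f(T) g)(0)` and nonsingularity. -/
structure PD (q : K) (S : Finset ι) where
  /-- the pairing -/
  B : MvPolynomial ι K →ₗ[K] MvPolynomial ι K →ₗ[K] K
  mul : ∀ i ∈ S, ∀ f g, B (X i * f) g = B f (T q S i g)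
  mul' : ∀ i, i ∉ S → ∀ f g, B (X i * f) g = 0
  const : ∀ a g, B (C a) g = a * constantCoeff g
  symm : ∀ f g, B f g = B g f
  sing : ∀ g ∈ supported K (S : Set ι), (∀ i ∈ S, T q S i g = 0) → g = C (constantCoeff g)

omit [DecidableEq ι] in
theorem lin_ext {φ ψ : MvPolynomial ι K →ₗ[K] K}
    (h : ∀ α, φ (monomial α 1) = ψ (monomial α 1)) (f : MvPolynomial ι K) : φ f = ψ f := by
  have : φ = ψ := by
    apply (basisMonomials ι K).ext
    intro α
    simpa using h α
  rw [this]

omit [DecidableEq ι] in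
theorem monomial_split {α : ι →₀ ℕ} {i : ι} (hi : α i ≠ 0) :
    (monomial α 1 : MvPolynomial ι K) = X i * monomial (α - Finsupp.single i 1) 1 := by
  rw [X, monomial_mul, mul_one, add_comm,
    tsub_add_cancel_of_le (Finsupp.single_le_iff.2 (Nat.one_le_iff_ne_zero.2 hi))]

omit [DecidableEq ι] in
theorem degree_sub_single {α : ι →₀ ℕ} {i : ι} (hi : α i ≠ 0) :
    (α - Finsupp.single i 1).degree + 1 = α.degree := by
  have h : α - Finsupp.single i 1 + Finsupp.single i 1 = α :=
    tsub_add_cancel_of_le (Finsupp.single_le_iff.2 (Nat.one_le_iff_ne_zero.2 hi))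
  conv_rhs => rw [← h]
  rw [map_add, Finsupp.degree_single]

namespace PD

variable {q : K} {S : Finset ι} (P : PD q S)

theorem B_one (g : MvPolynomial ι K) : P.B 1 g = constantCoeff g := by
  rw [← C_1, P.const, one_mul]

theorem B_monomial_eq_zero (n : ℕ) : ∀ (α : ι →₀ ℕ) (g : MvPolynomial ι K),
    g.totalDegree ≤ n → n < α.degree → P.B (monomial α 1) g = 0 := by
  induction n with
  | zero =>
    intro α g hg hα
    obtain ⟨i, hi⟩ : ∃ i, α i ≠ 0 := by
      by_contra hc
      push Not at hc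
      have : α = 0 := Finsupp.ext hc
      rw [this] at hα; simp at hα
    rw [monomial_split hi]
    by_cases hiS : i ∈ S
    · rw [P.mul i hiS, T_eq_zero_of_totalDegree q S (Nat.le_zero.1 hg), map_zero]
    · exact P.mul' i hiS _ _
  | succ n ih =>
    intro α g hg hα
    obtain ⟨i, hi⟩ : ∃ i, α i ≠ 0 := by
      by_contra hc
      push Not at hc
      have : α = 0 := Finsupp.ext hc
      rw [this] at hα; simp at hα
    rw [monomial_split hi]
    by_cases hiS : i ∈ S
    · rw [P.mul i hiS]
      refine ih _ _ (totalDegree_T q S hg) ?_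
      have := degree_sub_single hi
      omega
    · exact P.mul' i hiS _ _

theorem nondeg (n : ℕ) : ∀ (g : MvPolynomial ι K), g.totalDegree ≤ n →
    g ∈ supported K (S : Set ι) → (∀ f, P.B f g = 0) → g = 0 := by
  induction n with
  | zero =>
    intro g hg _ h
    have h1 := (totalDegree_eq_zero_iff_eq_C).1 (Nat.le_zero.1 hg)
    have h2 := h 1
    rw [P.B_one] at h2
    rw [h1] at h2 ⊢
    rw [constantCoeff_C] at h2
    rw [h2, C_0]
  | succ n ih =>
    intro g hg hs h
    have h1 : ∀ i ∈ S, T q S i g = 0 := by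
      intro i hi
      refine ih _ (totalDegree_T q S hg) (T_mem q hi hs) fun f => ?_
      rw [← P.mul i hi]; exact h _
    have h2 := P.sing g hs h1
    have h3 := h 1
    rw [P.B_one] at h3
    rw [h2, h3, C_0]

/-- Nondegeneracy. -/
theorem eq_zero {g : MvPolynomial ι K} (hs : g ∈ supported K (S : Set ι))
    (h : ∀ f, P.B f g = 0) : g = 0 := P.nondeg _ g le_rfl hs h

theorem _root_.Vale.Agent.P181.H4.monomial_mem {S : Finset ι} {α : ι →₀ ℕ}
    (h : ∀ i, α i ≠ 0 → i ∈ S) : (monomial α 1 : MvPolynomial ι K) ∈ supported K (S : Set ι) := by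
  rw [mem_supported]
  intro i hi
  rw [Finset.mem_coe, mem_vars_iff_mem_support] at hi
  obtain ⟨d, hd, hi⟩ := hi
  rw [mem_support_iff, coeff_monomial] at hd
  by_cases h1 : α = d
  · subst h1
    exact h i (Finsupp.mem_support_iff.1 hi)
  · rw [if_neg h1] at hd; exact absurd rfl hd

/-- Representation of functionals. -/
theorem exists_rep [Finite ι] (L : ℕ) (φ : MvPolynomial ι K →ₗ[K] K)
    (h1 : ∀ α : ι →₀ ℕ, (∃ i, i ∉ S ∧ α i ≠ 0) → φ (monomial α 1) = 0)
    (h2 : ∀ α : ι →₀ ℕ, L < α.degree → φ (monomial α 1) = 0) :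
    ∃ g ∈ supported K (S : Set ι), ∀ f, P.B f g = φ f := by
  classical
  let V : Submodule K (MvPolynomial ι K) :=
    Subalgebra.toSubmodule (supported K (S : Set ι)) ⊓ restrictTotalDegree ι K L
  have hfin : Module.Finite K V := by
    have : Module.Finite K (restrictTotalDegree ι K L) := inferInstance
    exact Submodule.finiteDimensional_of_le (show V ≤ restrictTotalDegree ι K L from inf_le_right)
  have hmono : ∀ α : ι →₀ ℕ, (∀ i, α i ≠ 0 → i ∈ S) → α.degree ≤ L →
      (monomial α 1 : MvPolynomial ι K) ∈ V := by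
    intro α ha hb
    refine ⟨monomial_mem ha, ?_⟩
    rw [SetLike.mem_coe, mem_restrictTotalDegree]
    refine (totalDegree_monomial_le _ _).trans ?_
    exact hb
  -- equality on V implies equality everywhere
  have key : ∀ (ψ : MvPolynomial ι K →ₗ[K] K),
      (∀ α : ι →₀ ℕ, (∃ i, i ∉ S ∧ α i ≠ 0) → ψ (monomial α 1) = 0) →
      (∀ α : ι →₀ ℕ, L < α.degree → ψ (monomial α 1) = 0) →
      ∀ g ∈ V, (∀ f ∈ V, P.B f g = ψ f) → ∀ f, P.B f g = ψ f := by
    intro ψ hψ1 hψ2 g hg hV f
    refine lin_ext (φ := P.B.flip g) (ψ := ψ) (fun α => ?_) f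
    rw [LinearMap.flip_apply]
    by_cases ha : ∀ i, α i ≠ 0 → i ∈ S
    · rcases le_or_gt α.degree L with hb | hb
      · exact hV _ (hmono α ha hb)
      · rw [hψ2 α hb]
        refine P.B_monomial_eq_zero L α g ?_ hb
        exact (mem_restrictTotalDegree _ _ _).1 hg.2
    · push Not at ha
      obtain ⟨i, hi, hiS⟩ := ha
      rw [hψ1 α ⟨i, hiS, hi⟩, monomial_split hi]
      exact P.mul' i hiS _ _
  let Θ : V →ₗ[K] Module.Dual K V :=
    { toFun := fun g => (P.B.flip (g : MvPolynomial ι K)).comp V.subtype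
      map_add' := fun a b => by ext f; simp
      map_smul' := fun c a => by ext f; simp }
  have hinj : Function.Injective Θ := by
    rw [← LinearMap.ker_eq_bot, LinearMap.ker_eq_bot']
    intro g hg
    apply Subtype.ext
    have h3 : ∀ f, P.B f (g : MvPolynomial ι K) = 0 := by
      refine key 0 (fun _ _ => rfl) (fun _ _ => rfl) g g.2 ?_
      intro f hf
      have := LinearMap.congr_fun hg ⟨f, hf⟩
      simpa [Θ] using this
    exact P.eq_zero g.2.1 h3
  have hsurj : Function.Surjective Θ :=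
    (LinearMap.injective_iff_surjective_of_finrank_eq_finrank
      (Subspace.dual_finrank_eq (K := K) (V := V)).symm).1 hinj
  obtain ⟨g, hg⟩ := hsurj (φ.comp V.subtype)
  refine ⟨g, g.2.1, key φ h1 h2 g g.2 ?_⟩
  intro f hf
  have := LinearMap.congr_fun hg ⟨f, hf⟩
  simpa [Θ] using this

end PD

end Vale.Agent.P181.H4
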